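import Vale.Agent.P058.Bdl.B1

/-- A finite set is Ramsey if and only if it has a balanced profile with integer weights, and it is
subtransitive if and only if it has one with positive weights; in particular subtransitive sets
are Ramsey. Every finite spherical set with algebraic distances, and every set of at most five
points of a circle, is Ramsey. Some finite Ramsey set is not subtransitive, and some finite
spherical set is not Ramsey. -/
theorem Vale.Agent.Results.P058.Criterion.result :
    (∀ (d : ℕ) (A : Set (EuclideanSpace ℝ (Fin d))), A.Finite → A.Nonempty →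
      (Vale.Agent.P058.IsRamsey A ↔ Vale.Agent.P058.HasProfile (fun _ => True) A) ∧
      (Vale.Agent.P058.IsSubtransitive A ↔ Vale.Agent.P058.HasProfile (fun m => 0 < m) A) ∧
      (Vale.Agent.P058.IsSubtransitive A → Vale.Agent.P058.IsRamsey A) ∧
      (Vale.Agent.P058.IsSpherical A → (∀ x ∈ A, ∀ y ∈ A, IsAlgebraic ℚ (dist x y)) →
        Vale.Agent.P058.IsRamsey A)) ∧
    (∀ A : Set (EuclideanSpace ℝ (Fin 2)), A.Finite → A.Nonempty → A.ncard ≤ 5 →
      Vale.Agent.P058.IsSpherical A → Vale.Agent.P058.IsRamsey A) ∧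
    (∃ A : Set (EuclideanSpace ℝ (Fin 2)), A.Finite ∧ A.Nonempty ∧
      Vale.Agent.P058.IsRamsey A ∧ ¬ Vale.Agent.P058.IsSubtransitive A) ∧
    (∃ A : Set (EuclideanSpace ℝ (Fin 2)), A.Finite ∧ A.Nonempty ∧
      Vale.Agent.P058.IsSpherical A ∧ ¬ Vale.Agent.P058.IsRamsey A) := by
  refine ⟨fun _ _ hA hne => ⟨Vale.Agent.P058.isRamsey_iff_profile hA hne,
    Vale.Agent.P058.isSubtransitive_iff_profile hA hne,
    fun h => (Vale.Agent.P058.isRamsey_iff_fold hA hne).2
      ⟨0, le_rfl, one_pos, (Vale.Agent.P058.isSubtransitive_iff hne).1 h⟩,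
    fun ⟨z, ρ, hS⟩ halg => (Vale.Agent.P058.isRamsey_iff_signed hA hne).2
      (Vale.Agent.P058.hasSignedProfile_of_algebraic_dist hA z ρ hS halg)⟩,
    fun _ hA hne hc ⟨z, ρ, hS⟩ => (Vale.Agent.P058.isRamsey_iff_signed hA hne).2
      (Vale.Agent.P058.signed_of_concyclic hA hc z ρ hS),
    Vale.Agent.P058.exists_ramsey_not_subtransitive,
    Vale.Agent.P058.exists_spherical_not_ramsey⟩
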