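import Vale.Agent.P058.Bdl.B1

/-- The two implications of the Leader-Russell-Walters conjecture: every finite subtransitive set
is Ramsey, but some finite Ramsey set is not subtransitive. Moreover some finite spherical set is
not Ramsey. -/
theorem Vale.Agent.Results.P058.LRW.result :
    (∀ (d : ℕ) (A : Set (EuclideanSpace ℝ (Fin d))), A.Finite → A.Nonempty →
      Vale.Agent.P058.IsSubtransitive A → Vale.Agent.P058.IsRamsey A) ∧
    (∃ A : Set (EuclideanSpace ℝ (Fin 2)), A.Finite ∧ A.Nonempty ∧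
      Vale.Agent.P058.IsRamsey A ∧ ¬ Vale.Agent.P058.IsSubtransitive A) ∧
    (∃ A : Set (EuclideanSpace ℝ (Fin 2)), A.Finite ∧ A.Nonempty ∧
      Vale.Agent.P058.IsSpherical A ∧ ¬ Vale.Agent.P058.IsRamsey A) :=
  ⟨fun _ A _ _ hA => Vale.Agent.P058.isRamsey_of_isSubtransitive A hA,
    Vale.Agent.P058.exists_ramsey_not_subtransitive,
    Vale.Agent.P058.exists_spherical_not_ramsey⟩
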